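import Vale.Agent.P181.RG.Defs
import Vale.Agent.P181.H530.Zero
import Vale.Agent.P181.H530.Pad

set_option autoImplicit false

/-!
# P181, RG: block FIN: the polylogarithmic form from `CoreRG` and the polylog theorem
-/

namespace Vale.Agent.P181.RG.H410

open Filter
open Vale.Agent.P181.RG
open Vale.Agent.P181.H280 (plethMult)

/-- The polylog theorem (`PLX.poly_result`). -/
def PLH : Prop := ∃ (C : ℝ) (c : ℕ), ∀ a b : ℕ, C * a * (1 + Real.log a) ^ c ≤ b →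
  ∀ (n : ℕ) (lam : Fin n → ℕ), plethMult a b n lam ≤ plethMult b a n lam

/-- A power of `1 + log a` is small. -/
theorem ev_log (M : ℝ) (p : ℕ) : ∃ a₀ : ℕ, ∀ a : ℕ, a₀ ≤ a → M * (1 + Real.log a) ^ p ≤ a := by
  have h1 : ∀ᶠ x : ℝ in atTop, ‖Real.log x ^ p‖ ≤ 1 / ((|M| + 1) * 2 ^ p) * ‖id x‖ :=
    (Real.isLittleO_pow_log_id_atTop (n := p)).bound (by positivity)
  have h2 : ∀ᶠ x : ℝ in atTop, 1 ≤ Real.log x := Real.tendsto_log_atTop.eventually_ge_atTop 1
  have h3 : ∀ᶠ x : ℝ in atTop, M * (1 + Real.log x) ^ p ≤ x := by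
    filter_upwards [h1, h2, eventually_ge_atTop (0 : ℝ)] with x hx1 hx2 hx0
    rw [Real.norm_of_nonneg (by positivity), id, Real.norm_of_nonneg hx0] at hx1
    have h5 : (1 + Real.log x) ^ p ≤ (2 * Real.log x) ^ p :=
      pow_le_pow_left₀ (by linarith) (by linarith) _
    have h6 : (0 : ℝ) < (|M| + 1) * 2 ^ p := by positivity
    calc M * (1 + Real.log x) ^ p ≤ (|M| + 1) * (1 + Real.log x) ^ p :=
          mul_le_mul_of_nonneg_right (by linarith [le_abs_self M]) (by positivity)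
      _ ≤ (|M| + 1) * (2 * Real.log x) ^ p := mul_le_mul_of_nonneg_left h5 (by positivity)
      _ = ((|M| + 1) * 2 ^ p) * Real.log x ^ p := by rw [mul_pow]; ring
      _ ≤ ((|M| + 1) * 2 ^ p) * (1 / ((|M| + 1) * 2 ^ p) * x) :=
          mul_le_mul_of_nonneg_left hx1 h6.le
      _ = x := by rw [← mul_assoc, mul_one_div_cancel h6.ne', one_mul]
  have h4 := tendsto_natCast_atTop_atTop.eventually h3
  obtain ⟨a₀, ha₀⟩ := eventually_atTop.1 h4
  exact ⟨a₀, ha₀⟩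

theorem one_le_L (a : ℕ) : 1 ≤ 1 + Real.log a := by
  have : 0 ≤ Real.log a := Real.log_natCast_nonneg a
  linarith

/-- The gap condition of `CoreRG`. -/
def Gap (a X m n : ℕ) (lam : Fin n → ℕ) : Prop := ∀ i : Fin n, (i : ℕ) < m →
  a ^ 2 ≤ X * lam i ∧ ∀ j : Fin n, m ≤ (j : ℕ) → a ^ 2 + X * lam j ≤ X * lam i

theorem m_le {a b X m n : ℕ} {lam : Fin n → ℕ} (ha : 0 < a) (hsum : ∑ i, lam i = a * b)
    (hb : b ≤ X * a) (hmn : m ≤ n) (hg : Gap a X m n lam) : m ≤ X ^ 2 := by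
  have h1 : (Finset.univ.filter fun i : Fin n => (i : ℕ) < m).card = m := by
    rw [Fin.card_filter_val_lt]
    omega
  have h2 : m * a ^ 2 ≤ X * (a * b) := by
    calc m * a ^ 2 = ∑ _i ∈ Finset.univ.filter fun i : Fin n => (i : ℕ) < m, a ^ 2 := by
          rw [Finset.sum_const, h1, smul_eq_mul]
      _ ≤ ∑ i ∈ Finset.univ.filter fun i : Fin n => (i : ℕ) < m, X * lam i :=
          Finset.sum_le_sum fun i hi => (hg i (Finset.mem_filter.1 hi).2).1
      _ ≤ ∑ i, X * lam i := Finset.sum_le_sum_of_subset (Finset.filter_subset _ _)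
      _ = X * (a * b) := by rw [← Finset.mul_sum, hsum]
  have h3 : m * a ^ 2 ≤ X ^ 2 * a ^ 2 := by
    calc m * a ^ 2 ≤ X * (a * b) := h2
      _ ≤ X * (a * (X * a)) := by gcongr
      _ = X ^ 2 * a ^ 2 := by ring
  exact Nat.le_of_mul_le_mul_right h3 (by positivity)

/-- The core for every number of rows. -/
theorem coreN {a₀ : ℕ}
    (hC : ∀ (a b X m n : ℕ) (lam : Fin n → ℕ), a₀ ≤ a → Antitone lam →
      ∑ i, lam i = a * b → n ≤ a → 2 ≤ X → X ^ 40 ≤ a → 20 * a ≤ b → b ≤ X * a → 3 ≤ m → m ≤ n →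
      m ≤ X ^ 2 → Gap a X m n lam → plethMult a b n lam ≤ plethMult b a n lam)
    {a b X m n : ℕ} {lam : Fin n → ℕ} (ha : a₀ ≤ a) (ha0 : 0 < a) (hanti : Antitone lam)
    (hsum : ∑ i, lam i = a * b) (hX : 2 ≤ X) (hX40 : X ^ 40 ≤ a) (h20 : 20 * a ≤ b)
    (hb : b ≤ X * a) (hm : 3 ≤ m) (hmn : m ≤ n) (hg : Gap a X m n lam) :
    plethMult a b n lam ≤ plethMult b a n lam := by
  have hmX := m_le ha0 hsum hb hmn hg
  rcases le_or_gt n a with hn | hn
  · exact hC a b X m n lam ha hanti hsum hn hX hX40 h20 hb hm hmn hmX hg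
  by_cases hz : plethMult a b n lam = 0
  · rw [hz]
    exact Nat.zero_le _
  obtain ⟨-, -, hrow⟩ := H530.zero_stmt a b n lam hz
  have hma : m ≤ a := by
    by_contra hc
    push Not at hc
    have h1 := (hg ⟨a, hn⟩ hc).1
    have h2 := hrow ⟨a, hn⟩ le_rfl
    rw [h2, mul_zero] at h1
    have : 0 < a ^ 2 := by positivity
    omega
  obtain ⟨l, rfl⟩ := Nat.exists_eq_add_of_lt hn
  obtain ⟨mu, hmu⟩ : ∃ mu : Fin a → ℕ, mu = fun j : Fin a => lam ⟨(j : ℕ), by omega⟩ :=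
    ⟨_, rfl⟩
  have hlam' : lam = fun i : Fin (a + (l + 1)) =>
      if h : (i : ℕ) < a then mu ⟨i, h⟩ else 0 := by
    funext i
    by_cases hi : (i : ℕ) < a
    · rw [dif_pos hi, hmu]
    · rw [dif_neg hi]
      exact hrow i (by omega)
  have hmu1 : Antitone mu := by
    intro i j hij
    have hij' : (i : ℕ) ≤ j := hij
    rw [hmu]
    exact hanti (show (⟨i, by omega⟩ : Fin (a + l + 1)) ≤ ⟨j, by omega⟩ from hij')
  have hmu2 : ∑ i, mu i = a * b := by
    rw [← hsum]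
    have h3 : ∑ i : Fin (a + (l + 1)), lam i = ∑ i : Fin a, lam (Fin.castAdd (l + 1) i) +
        ∑ i : Fin (l + 1), lam (Fin.natAdd a i) := Fin.sum_univ_add _
    have h2 : ∑ i : Fin (l + 1), lam (Fin.natAdd a i) = 0 := by
      apply Finset.sum_eq_zero
      intro i _
      exact hrow _ (by simp)
    rw [h2, add_zero] at h3
    rw [hmu]
    exact h3.symm
  have hmug : Gap a X m a mu := by
    intro i hi
    have h1 := hg ⟨i, by omega⟩ hi
    refine ⟨by rw [hmu]; exact h1.1, fun j hj => ?_⟩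
    have h2 := h1.2 ⟨j, by omega⟩ hj
    rw [hmu]
    exact h2
  have h4 := hC a b X m a mu ha hmu1 hmu2 le_rfl hX hX40 h20 hb hm hma hmX hmug
  have h5 : plethMult a b (a + (l + 1)) lam = plethMult a b a mu := by
    rw [hlam']
    exact H530.pad_stmt a b a (l + 1) mu
  have h6 : plethMult b a (a + (l + 1)) lam = plethMult b a a mu := by
    rw [hlam']
    exact H530.pad_stmt b a a (l + 1) mu
  exact h5.trans_le (h4.trans_eq h6.symm)

/-- **[FIN]** -/
theorem fin_of (hC : CoreRG) (hPL : PLH) : FinRG := by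
  intro C₀ c₀ hC₀ hc₀
  obtain ⟨C', c', hP⟩ := hPL
  obtain ⟨a₀, hcore⟩ := hC
  obtain ⟨C1, hC1, hC1'⟩ : ∃ C1 : ℝ, 1 ≤ C1 ∧ C' ≤ C1 := ⟨max 1 C', le_max_left _ _,
    le_max_right _ _⟩
  obtain ⟨e, hee1, hee2⟩ : ∃ e : ℕ, c' ≤ e ∧ c₀ ≤ e :=
    ⟨c' + ⌈c₀⌉₊, Nat.le_add_right _ _, (Nat.le_ceil c₀).trans (by
      push_cast
      linarith [(Nat.cast_nonneg c' : (0 : ℝ) ≤ c')])⟩
  obtain ⟨K1, hK1⟩ : ∃ K1, K1 = C₀ + C1 + 2 := ⟨_, rfl⟩
  obtain ⟨a₁, ha₁⟩ := ev_log ((K1 + 1) ^ 40) (e * 40)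
  obtain ⟨a₂, ha₂⟩ : ∃ a₂, a₂ = max a₀ a₁ := ⟨_, rfl⟩
  have ha₂0 : a₀ ≤ a₂ := by rw [ha₂]; exact le_max_left _ _
  have ha₂1 : a₁ ≤ a₂ := by rw [ha₂]; exact le_max_right _ _
  have hL2 := one_le_L a₂
  refine ⟨20 + C1 * (1 + Real.log a₂) ^ c', by positivity, ?_⟩
  intro a b m n lam hanti hsum hab hm hmn hgap
  have haR0 : (0 : ℝ) ≤ a := Nat.cast_nonneg a
  have hbR : (0 : ℝ) ≤ b := Nat.cast_nonneg b
  have hL := one_le_L a
  have hpos1 : 0 ≤ C1 * (1 + Real.log a₂) ^ c' := by positivity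
  -- small `a`
  rcases le_or_gt a a₂ with hsmall | hbig
  · refine hP a b ?_ _ _
    rcases Nat.eq_zero_or_pos a with h0 | h0
    · rw [h0]
      simp
    · have h1 : Real.log a ≤ Real.log a₂ :=
        Real.log_le_log (by exact_mod_cast h0) (by exact_mod_cast hsmall)
      have h2 : (1 + Real.log a) ^ c' ≤ (1 + Real.log a₂) ^ c' :=
        pow_le_pow_left₀ (by linarith) (by linarith) _
      have h3 : 0 ≤ (1 + Real.log a) ^ c' := by positivity
      calc C' * a * (1 + Real.log a) ^ c' ≤ C1 * a * (1 + Real.log a) ^ c' := by gcongr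
        _ ≤ C1 * a * (1 + Real.log a₂) ^ c' := by gcongr
        _ = C1 * (1 + Real.log a₂) ^ c' * a := by ring
        _ ≤ (20 + C1 * (1 + Real.log a₂) ^ c') * a := by gcongr; linarith
        _ ≤ b := hab
  have ha : 0 < a := by omega
  have haR : (1 : ℝ) ≤ a := by exact_mod_cast ha
  have hP1 := hP a b
  have ha1 := ha₁ a (by omega)
  obtain ⟨L, hLe⟩ : ∃ L, L = 1 + Real.log a := ⟨_, rfl⟩
  rw [← hLe] at hL hgap hP1 ha1
  rw [pow_mul] at ha1
  obtain ⟨P, hPe⟩ : ∃ P, P = L ^ e := ⟨_, rfl⟩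
  rw [← hPe] at ha1
  have hP0 : 1 ≤ P := by rw [hPe]; exact one_le_pow₀ hL
  have hLP : L ^ c' ≤ P := by rw [hPe]; exact pow_le_pow_right₀ hL hee1
  have hLP2 : L ^ c₀ ≤ P := by
    rw [hPe, ← Real.rpow_natCast]
    exact Real.rpow_le_rpow_of_exponent_le hL hee2
  -- large `b`
  by_cases hb : C1 * a * P ≤ b
  · refine hP1 ?_ _ _
    refine le_trans ?_ hb
    have : 0 ≤ L ^ c' := by positivity
    calc C' * a * L ^ c' ≤ C1 * a * L ^ c' := by gcongr
      _ ≤ C1 * a * P := by gcongr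
  push Not at hb
  have hK1' : 2 ≤ K1 := by rw [hK1]; linarith
  obtain ⟨X, hX⟩ : ∃ X, X = ⌈K1 * P⌉₊ := ⟨_, rfl⟩
  have hX1 : K1 * P ≤ X := by rw [hX]; exact Nat.le_ceil _
  have hX2 : (X : ℝ) ≤ (K1 + 1) * P := by
    rw [hX]
    have := (Nat.ceil_lt_add_one (show 0 ≤ K1 * P by positivity)).le
    linarith
  have hKP : C₀ * P + C1 * P + 2 * P ≤ X := by
    refine le_trans (le_of_eq ?_) hX1
    rw [hK1]
    ring
  have hC0P : 0 ≤ C₀ * P := by positivity
  have hC1P : 0 ≤ C1 * P := by positivity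
  have hX40 : X ^ 40 ≤ a := by
    have : (X : ℝ) ^ 40 ≤ a := by
      calc (X : ℝ) ^ 40 ≤ ((K1 + 1) * P) ^ 40 := by gcongr
        _ = (K1 + 1) ^ 40 * P ^ 40 := by ring
        _ ≤ a := ha1
    exact_mod_cast this
  have hX2' : 2 ≤ X := by
    have : (2 : ℝ) ≤ X := by linarith
    exact_mod_cast this
  have hbX : b ≤ X * a := by
    have : (b : ℝ) ≤ X * a := by
      calc (b : ℝ) ≤ C1 * a * P := hb.le
        _ = (C1 * P) * a := by ring
        _ ≤ X * a := by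
            have : C1 * P ≤ X := by linarith
            gcongr
    exact_mod_cast this
  have h20 : 20 * a ≤ b := by
    have : 20 * (a : ℝ) ≤ b := by
      refine le_trans ?_ hab
      have : 0 ≤ C1 * (1 + Real.log a₂) ^ c' * a := by positivity
      linarith
    exact_mod_cast this
  have hCX : C₀ * L ^ c₀ ≤ X := by
    have h1 : C₀ * L ^ c₀ ≤ C₀ * P := by gcongr
    linarith
  have hCL : 0 ≤ C₀ * L ^ c₀ := by positivity
  have ha2 : (0 : ℝ) < (a : ℝ) ^ 2 := by positivity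
  refine coreN hcore (by omega) ha hanti hsum hX2' hX40 h20 hbX hm hmn ?_
  intro i hi
  obtain ⟨h1, h2⟩ := hgap i hi
  constructor
  · have : (a : ℝ) ^ 2 ≤ X * lam i := by
      refine h1.trans ?_
      gcongr
    exact_mod_cast this
  · intro j hj
    have h3 := h2 j hj
    have h4 : 0 < (lam i : ℝ) - lam j := by
      by_contra hcon
      push Not at hcon
      have := mul_nonpos_of_nonneg_of_nonpos hCL hcon
      linarith
    have h5 : (a : ℝ) ^ 2 ≤ X * ((lam i : ℝ) - lam j) := by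
      refine h3.trans ?_
      gcongr
    have : (a : ℝ) ^ 2 + X * lam j ≤ X * lam i := by linarith
    exact_mod_cast this

end Vale.Agent.P181.RG.H410
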